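import Vale.Agent.P139.Bdl.B1

open MeasureTheory ProbabilityTheory
open scoped ENNReal

namespace Vale.Agent.Results.P139.LifespanTail

open Vale.Agent.P139.A

theorem result (d p k : ℕ) (_hd : 1 ≤ d) (hp : Odd p) (hp3 : 3 ≤ p) (_hk : d < 2 * k)
    (θ : ℝ) (hθ : θ < 1 / 2) :
    ∃ κ : ℝ, 0 < κ ∧ ∃ α₁ : ℝ,
      ∀ (Ω : Type) [MeasurableSpace Ω] (P : Measure Ω) [IsProbabilityMeasure P]
        (g : (Fin d → ℤ) → Ω → ℂ), (∀ n, Measurable (g n)) → iIndepFun g P →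
        (∀ n, P.map (g n) = stdComplexGaussian) →
        (∀ α : ℝ, α₁ ≤ α →
          P {ω | lifespan d p k (datum g α ω) < ENNReal.ofReal ((2 : ℝ) ^ (θ * α))}
            ≤ ENNReal.ofReal (Real.exp (-(2 : ℝ) ^ (κ * α)))) ∧
        (∀ᵐ ω ∂P, ∃ c : ℝ, 0 < c ∧ ∃ α₂ : ℝ, ∀ α : ℝ, α₂ ≤ α →
          ENNReal.ofReal (c * (2 : ℝ) ^ (α / 2)) ≤ lifespan d p k (datum g α ω)) := by
  obtain ⟨κ, hκ, α₁, h⟩ := Vale.Agent.P139.tail_main (d := d) hp hp3 k hθ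
  refine ⟨κ, hκ, α₁, ?_⟩
  intro Ω _ P _ g hm _ hg
  refine ⟨fun α hα => h P g hm hg α hα, ?_⟩
  filter_upwards [main P hp hp3 k g hm hg] with ω ⟨c, hc, α₂, h2⟩
  exact ⟨c, hc, α₂, fun α hα => h2 α hα⟩

end Vale.Agent.Results.P139.LifespanTail
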